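import Mathlib
import Vale.Agent.P262.Lower

open Vale.P262

namespace Vale.Agent.Results.P262.Lower

/-- For `d ≥ 2` no bound below `√(d + 1/2)` on the signed prefix sums is possible, that is
`σ(d) ≥ √(d + 1/2)`. -/
theorem result (d : ℕ) (hd : 2 ≤ d) (s : ℝ) (h : SignedPrefixBound d s) :
    Real.sqrt ((d : ℝ) + 1 / 2) ≤ s := by
  obtain ⟨m, rfl⟩ : ∃ m, d = m + 2 := ⟨d - 2, by omega⟩
  obtain ⟨h1, h2⟩ := main m s h
  apply Real.sqrt_le_iff.mpr
  refine ⟨h2, ?_⟩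
  push_cast
  linarith

end Vale.Agent.Results.P262.Lower
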